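import Vale.Agent.P070Z41.Alg
import Vale.Agent.P070ZA.Hs

/-!
# Adding one unitary: projections and double commutants

`B` is the algebra of all operators on `L`, acting through `ap`.
-/

set_option linter.unusedSectionVars false

namespace Vale.Agent.P070Z41

open Vale.Agent.P129B Vale.Agent.P070Z

universe v

variable {N : Type v} [ZM N] {R K : Type*} [Nm K R] [Field R] [LinearOrder R]
  [IsStrictOrderedRing R] [Field K] [Algebra R K] [KA R K] [StarRing K] [CX R K]
  [Coded N R] [RF N R] [Coded N K] [KF N R K]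
  {L : Type*} [AddCommGroup L] [Module K L] [Nm L R] [Ip L K] [IA R K L] [Coded N L] [HS N R K L]
  {B : Type*} [Ring B] [StarRing B] [Algebra K B] [Nm B R] [Coded N B]

variable (N K) in
/-- `B` acts on `L` as the algebra of all operators -/
structure Act (ap : B → L → L) : Prop where
  dap : ∀ x, DefF N (ap x)
  one : ∀ v, ap 1 v = v
  mul : ∀ x y v, ap (x * y) v = ap x (ap y v)
  add : ∀ x y v, ap (x + y) v = ap x v + ap y v
  smul : ∀ (c : K) x v, ap (c • x) v = c • ap x v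
  add' : ∀ x v w, ap x (v + w) = ap x v + ap x w
  smul' : ∀ x (c : K) v, ap x (c • v) = c • ap x v
  adj : ∀ x v w, ip (ap (star x) v) w = ip v (ap x w)
  ext : ∀ x y, (∀ v, ap x v = ap y v) → x = y
  bd : ∀ x v, nm (ap x v) ≤ nm x * nm v
  proj : ∀ V : Set L, IsISub N K V → Cld V →
    ∃ p : B, star p = p ∧ (∀ v, ap p v ∈ V) ∧ ∀ v ∈ V, ap p v = v

/-- the double commutant -/
def cc (G : Set B) : Set B := {x | ∀ T, (∀ y ∈ G, y * T = T * y) → T * x = x * T}

/-- a unital `*`-closed multiplicative set -/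
structure SM (G : Set B) : Prop where
  one : (1 : B) ∈ G
  mul : ∀ x ∈ G, ∀ y ∈ G, x * y ∈ G
  star_mem : ∀ x ∈ G, star x ∈ G

theorem le_cc {G : Set B} {x : B} (hx : x ∈ G) : x ∈ cc G := fun _ hT => (hT x hx).symm

theorem SM.comm_star {G : Set B} (h : SM G) {T : B} (hT : ∀ y ∈ G, y * T = T * y) :
    ∀ y ∈ G, y * star T = star T * y := fun y hy => by
  have := congrArg star (hT _ (h.star_mem y hy))
  simpa only [star_mul, star_star] using this.symm

theorem SM.cc {G : Set B} (h : SM G) : SM (cc G) where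
  one T _ := by rw [mul_one, one_mul]
  mul x hx y hy T hT := by rw [← mul_assoc, hx T hT, mul_assoc, hy T hT, mul_assoc]
  star_mem x hx T hT := by
    have := congrArg star (hx _ (h.comm_star hT))
    simpa only [star_mul, star_star] using this.symm

include R in
/-- a sesquilinear form vanishing on orthogonal pairs is a multiple of the inner product -/
theorem scalar_of_orth {V : Set L} (add : ∀ x ∈ V, ∀ y ∈ V, x + y ∈ V)
    (smul : ∀ c : K, ∀ x ∈ V, c • x ∈ V) {f : L → L} (fa : ∀ v w, f (v + w) = f v + f w)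
    (fs : ∀ (c : K) v, f (c • v) = c • f v)
    (h : ∀ z ∈ V, ∀ w ∈ V, ip w z = 0 → ip w (f z) = 0) :
    ∃ c : K, ∀ z ∈ V, ∀ w ∈ V, ip w (f z) = c * ip w z := by
  have h1 : ∀ z ∈ V, ∀ w ∈ V, ip z z * ip w (f z) = ip z (f z) * ip w z := by
    intro z hz w hw
    have h2 := h z hz (star (ip z z) • w + (-star (ip w z)) • z)
      (add _ (smul _ _ hw) _ (smul _ _ hz)) (by
        rw [ip_add_left, ip_smul_left, ip_smul_left, star_neg, star_star, star_star]; ring)
    rw [ip_add_left, ip_smul_left, ip_smul_left, star_neg, star_star, star_star] at h2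
    linear_combination h2
  have f0 : f 0 = 0 := by
    have := fs 0 0
    rwa [zero_smul, zero_smul] at this
  by_cases hV : ∃ z0 ∈ V, z0 ≠ 0
  swap
  · push Not at hV
    exact ⟨0, fun z hz w _ => by rw [hV z hz, f0, ip_zero_right, mul_zero]⟩
  obtain ⟨z0, hz0, hn⟩ := hV
  have hnn : ip z0 z0 ≠ (0 : K) := fun e => hn (ip_self_eq_zero.1 e)
  have h2 : ∀ z ∈ V, ip z0 z = 0 → ip z0 z0 * ip z (f z) = ip z0 (f z0) * ip z z := by
    intro z hz e
    have a1 := h1 (z0 + z) (add _ hz0 _ hz) z hz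
    have a2 := h z0 hz0 z hz (ip_eq_zero_symm e)
    have a3 := h z hz z0 hz0 e
    simp only [ip_add_left, ip_add_right, fa, e, ip_eq_zero_symm e, a2, a3, add_zero,
      zero_add] at a1
    linear_combination a1
  have h3 : ∀ z ∈ V, ip z0 z = 0 → ∀ w ∈ V, ip z0 z0 * ip w (f z) = ip z0 (f z0) * ip w z := by
    intro z hz e w hw
    by_cases hz' : z = 0
    · rw [hz', f0, ip_zero_right, mul_zero, mul_zero]
    · have c2 : ip z z ≠ (0 : K) := fun e => hz' (ip_self_eq_zero.1 e)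
      refine mul_left_cancel₀ c2 ?_
      linear_combination ip z0 z0 * h1 z hz w hw + ip w z * h2 z hz e
  refine ⟨ip z0 (f z0) / ip z0 z0, fun z hz w hw => ?_⟩
  obtain ⟨z', hz'⟩ : ∃ z', z' = z + (-(ip z0 z / ip z0 z0)) • z0 := ⟨_, rfl⟩
  have e : z = z' + (ip z0 z / ip z0 z0) • z0 := by rw [hz', neg_smul]; abel
  have m : z' ∈ V := hz' ▸ add _ hz _ (smul _ _ hz0)
  have o : ip z0 z' = (0 : K) := by
    rw [hz', ip_add_right, ip_smul_right]; field_simp; ring
  generalize ip z0 z / ip z0 z0 = a at e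
  rw [e, fa, fs, ip_add_right, ip_add_right, ip_smul_right, ip_smul_right]
  field_simp
  linear_combination h3 z' m o w hw + a * h1 z0 hz0 w hw

variable {ap : B → L → L}

/-- `p` is the projection onto the kernel of `k` -/
structure IsPK (ap : B → L → L) (k p : B) : Prop where
  sa : star p = p
  mem : ∀ v, ap k (ap p v) = 0
  fix : ∀ v, ap k v = 0 → ap p v = v

namespace Act

variable (A : Act N K ap)
include A

theorem zero' (x : B) : ap x 0 = 0 := by
  have := A.smul' x 0 0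
  rwa [zero_smul, zero_smul] at this

theorem zero (v : L) : ap 0 v = 0 := by
  have := A.smul 0 0 v
  rwa [zero_smul, zero_smul] at this

theorem sub' (x : B) (v w : L) : ap x (v - w) = ap x v - ap x w :=
  eq_sub_of_add_eq (by rw [← A.add', sub_add_cancel])

theorem sub (x y : B) (v : L) : ap (x - y) v = ap x v - ap y v :=
  eq_sub_of_add_eq (by rw [← A.add, sub_add_cancel])

theorem adj' (x : B) (v w : L) : ip v (ap (star x) w) = ip (ap x v) w := by
  rw [← A.adj, star_star]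

theorem cstar (x : B) (h : star x * x = 0) : x = 0 := A.ext _ _ fun v => by
  rw [A.zero, ← ip_self_eq_zero, ← A.adj', ← A.mul, h, A.zero, ip_zero_right]

theorem comm_proj {V : Set L} {p T : B} (sp : star p = p) (h1 : ∀ v, ap p v ∈ V)
    (h2 : ∀ v ∈ V, ap p v = v) (h : ∀ v ∈ V, ap T v ∈ V) (h' : ∀ v ∈ V, ap (star T) v ∈ V) :
    p * T = T * p := by
  have key : ∀ S : B, (∀ v ∈ V, ap S v ∈ V) → p * (S * p) = S * p := fun S hS =>
    A.ext _ _ fun v => by rw [A.mul, A.mul, h2 _ (hS _ (h1 v))]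
  have e := congrArg star (key _ h')
  simp only [star_mul, star_star, sp] at e
  rw [← e, mul_assoc, key _ h]

theorem exists_pk (k : B) : ∃ p, IsPK ap k p := by
  have := A.dap k
  obtain ⟨p, h1, h2, h3⟩ := A.proj {v | ap k v = 0}
    ⟨intl_setOfT (by fun_prop), A.zero' k,
      fun x hx y hy => by
        show ap k (x + y) = 0
        rw [A.add', hx, hy, add_zero],
      fun c x hx => by
        show ap k (c • x) = 0
        rw [A.smul', hx, smul_zero]⟩
    (cld_eq_zero (C := nm k) fun x y => by rw [← A.sub']; exact A.bd _ _)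
  exact ⟨p, h1, h2, h3⟩

theorem pk_idem {k p : B} (h : IsPK ap k p) : p * p = p :=
  A.ext _ _ fun v => by rw [A.mul, h.fix _ (h.mem v)]

theorem ip_pk {k p : B} (h : IsPK ap k p) (w y : L) : ip w (ap p y) = ip (ap p w) y := by
  rw [← A.adj, h.sa]

theorem pk_mem {G : Set B} (hG : SM G) {k p : B} (hk : k ∈ G) (h : IsPK ap k p) : p ∈ cc G := by
  intro T hT
  have key : ∀ S : B, (∀ y ∈ G, y * S = S * y) → ∀ v ∈ {v | ap k v = 0},
      ap S v ∈ {v | ap k v = 0} := fun S hS v hv => by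
    show ap k (ap S v) = 0
    rw [← A.mul, hS k hk, A.mul, hv, A.zero']
  exact (A.comm_proj (V := {v | ap k v = 0}) h.sa h.mem h.fix (key T hT)
    (key _ (hG.comm_star hT))).symm

/-- vectors orthogonal to `G z` are orthogonal to the values of the double commutant -/
theorem ip_cc {G : Set B} (hG : SM G) {z : L}
    (hd : Intl N {w : L | ∀ y ∈ G, ip w (ap y z) = 0}) {x : B} (hx : x ∈ cc G) {w : L}
    (h : ∀ y ∈ G, ip w (ap y z) = 0) : ip w (ap x z) = 0 := by
  obtain ⟨q, h1, h2, h3⟩ := A.proj {w : L | ∀ y ∈ G, ip w (ap y z) = 0}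
    ⟨hd, fun y _ => ip_zero_left _,
      fun a ha b hb y hy => by rw [ip_add_left, ha y hy, hb y hy, add_zero],
      fun c a ha y hy => by rw [ip_smul_left, ha y hy, mul_zero]⟩
    (cld_forall fun y => cld_forall fun _ => cld_eq_zero (C := nm (ap y z)) fun a b => by
      rw [← ip_sub_left, mul_comm]; exact nm_ip_le _ _)
  have inv : ∀ a ∈ G, ∀ v ∈ {w : L | ∀ y ∈ G, ip w (ap y z) = 0},
      ap a v ∈ {w : L | ∀ y ∈ G, ip w (ap y z) = 0} := fun a ha v hv y hy => by
    rw [← A.adj', ← A.mul]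
    exact hv _ (hG.mul _ (hG.star_mem a ha) _ hy)
  have e : q * x = x * q := hx q fun y hy =>
    (A.comm_proj h1 h2 h3 (inv y hy) (inv _ (hG.star_mem y hy))).symm
  have q0 : ap q z = 0 := by
    have a1 := h2 (ap q z) 1 hG.one
    rw [A.one, h3 _ (h2 z)] at a1
    have a2 : ip (ap q z) (ap q z) = ip (ap q (ap q z)) z := by
      rw [← A.adj' q (ap q z) z, h1]
    rw [h3 _ (h2 z), a1] at a2
    exact ip_self_eq_zero.1 a2
  rw [← h3 w h, ← A.adj', h1, ← A.mul, e, A.mul, q0, A.zero', ip_zero_right]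

variable {G : Set B} (hG : SM G) (hd : ∀ z, Intl N {w : L | ∀ y ∈ G, ip w (ap y z) = 0})
include hG hd

theorem det_cc {k : B}
    (D : ∀ x ∈ G, ∃ c : K, ∀ z w, ap k z = 0 → ap k w = 0 → ip w (ap x z) = c * ip w z)
    {x : B} (hx : x ∈ cc G) :
    ∃ c : K, ∀ z w, ap k z = 0 → ap k w = 0 → ip w (ap x z) = c * ip w z := by
  obtain ⟨c, hc⟩ := scalar_of_orth (V := {v | ap k v = 0}) (f := ap x)
    (fun a ha b hb => by
      show ap k (a + b) = 0
      rw [A.add', ha, hb, add_zero])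
    (fun c a ha => by
      show ap k (c • a) = 0
      rw [A.smul', ha, smul_zero]) (A.add' x) (A.smul' x) fun z hz w hw e =>
    A.ip_cc hG (hd z) hx fun y hy => by
      obtain ⟨c, hc⟩ := D y hy
      rw [hc z w hz hw, e, mul_zero]
  exact ⟨c, fun z w hz hw => hc z hz w hw⟩

theorem pk_scalar {k p : B} (h : IsPK ap k p)
    (D : ∀ x ∈ G, ∃ c : K, ∀ z w, ap k z = 0 → ap k w = 0 → ip w (ap x z) = c * ip w z)
    {x : B} (hx : x ∈ cc G) : ∃ c : K, p * x * p = c • p := by
  obtain ⟨c, hc⟩ := A.det_cc hG hd D hx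
  refine ⟨c, A.ext _ _ fun z => ext_ip_left fun w => ?_⟩
  rw [A.mul, A.mul, A.ip_pk h, hc _ _ (h.mem z) (h.mem w), A.smul, ip_smul_right, ← A.ip_pk h,
    h.fix _ (h.mem z)]

theorem pk_orth {k1 k2 p1 p2 : B} (h1 : IsPK ap k1 p1) (h2 : IsPK ap k2 p2)
    (I : ∀ x ∈ G, ∀ z1 z2, ap k1 z1 = 0 → ap k2 z2 = 0 → ip z2 (ap x z1) = 0)
    {x : B} (hx : x ∈ cc G) : p2 * x * p1 = 0 := by
  refine A.ext _ _ fun z => ext_ip_left fun w => ?_
  rw [A.mul, A.mul, A.ip_pk h2, A.zero, ip_zero_right]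
  exact A.ip_cc hG (hd _) hx fun y hy => I y hy _ _ (h1.mem z) (h2.mem w)

/-- the algebraic data of a gluing unitary -/
theorem ag {k1 k2 p1 p2 u : B} (h1 : IsPK ap k1 p1) (h2 : IsPK ap k2 p2) (m1 : k1 ∈ G)
    (m2 : k2 ∈ G) (sa : star k1 = k1) (us : u * star u = 1) (su : star u * u = 1)
    (huk : u * k1 ∈ G) (hc : ∀ z, ap k1 z = 0 → ap k2 (ap u z) = 0)
    (hc' : ∀ z, ap k2 z = 0 → ap k1 (ap (star u) z) = 0)
    (D1 : ∀ x ∈ G, ∃ c : K, ∀ z w, ap k1 z = 0 → ap k1 w = 0 → ip w (ap x z) = c * ip w z)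
    (D2 : ∀ x ∈ G, ∃ c : K, ∀ z w, ap k2 z = 0 → ap k2 w = 0 → ip w (ap x z) = c * ip w z)
    (I : ∀ x ∈ G, ∀ z1 z2, ap k1 z1 = 0 → ap k2 z2 = 0 → ip z2 (ap x z1) = 0) :
    AG K (cc G) p1 p2 u where
  one := hG.cc.one
  mul := hG.cc.mul
  star_mem := hG.cc.star_mem
  m1 := A.pk_mem hG m1 h1
  m2 := A.pk_mem hG m2 h2
  s1 := h1.sa
  s2 := h2.sa
  i1 := A.pk_idem h1
  i2 := A.pk_idem h2
  us := us
  su := su
  u1 := A.ext _ _ fun z => by simp only [A.mul]; exact h2.fix _ (hc _ (h1.mem z))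
  u2 := A.ext _ _ fun z => by simp only [A.mul]; exact h1.fix _ (hc' _ (h2.mem z))
  part T hT := by
    have hp : T * p1 = p1 * T := A.pk_mem hG m1 h1 T hT
    have e1 : (T * u - u * T) * k1 = 0 := by
      rw [sub_mul, mul_assoc T, ← hT _ huk, mul_assoc u T, ← hT k1 m1, ← mul_assoc, sub_self]
    have e2 : k1 * star (T * u - u * T) = 0 := by
      have := congrArg star e1
      rwa [star_mul, sa, star_zero] at this
    have e3 : p1 * star (T * u - u * T) = star (T * u - u * T) :=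
      A.ext _ _ fun z => by rw [A.mul, h1.fix _ (by rw [← A.mul, e2, A.zero])]
    have e4 := congrArg star e3
    rw [star_mul, star_star, h1.sa] at e4
    have e5 : T * u * (1 - p1) = u * T * (1 - p1) := by
      rw [← sub_eq_zero, ← sub_mul, mul_sub, mul_one, e4, sub_self]
    rw [← mul_assoc, e5, mul_assoc, mul_assoc, mul_sub, sub_mul, mul_one, one_mul, hp]
  d1 _ hx := A.pk_scalar hG hd h1 D1 hx
  d2 _ hx := A.pk_scalar hG hd h2 D2 hx
  orth _ hx := A.pk_orth hG hd h1 h2 I hx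

end Act

end Vale.Agent.P070Z41
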