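import Mathlib.Algebra.Star.Basic
import Mathlib.Algebra.Algebra.Basic
import Mathlib.Tactic

/-!
# Adding one unitary: the algebra

`C` plays the role of a double commutant, `p1`, `p2` of the projections onto two kernels which
the unitary `u` exchanges.
-/

namespace Vale.Agent.P070Z41

variable {K B : Type*} [Field K] [Ring B] [StarRing B] [Algebra K B]

variable (K) in
/-- the algebraic data of a gluing unitary -/
structure AG (C : Set B) (p1 p2 u : B) : Prop where
  one : (1 : B) ∈ C
  mul : ∀ x ∈ C, ∀ y ∈ C, x * y ∈ C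
  star_mem : ∀ x ∈ C, star x ∈ C
  m1 : p1 ∈ C
  m2 : p2 ∈ C
  s1 : star p1 = p1
  s2 : star p2 = p2
  i1 : p1 * p1 = p1
  i2 : p2 * p2 = p2
  us : u * star u = 1
  su : star u * u = 1
  u1 : p2 * u * p1 = u * p1
  u2 : p1 * star u * p2 = star u * p2
  part : u * (1 - p1) ∈ C
  d1 : ∀ x ∈ C, ∃ c : K, p1 * x * p1 = c • p1
  d2 : ∀ x ∈ C, ∃ c : K, p2 * x * p2 = c • p2
  orth : ∀ x ∈ C, p2 * x * p1 = 0

/-- the test words -/
def Wd (C : Set B) (p1 p2 u Y : B) : Prop :=
  Y ∈ C ∨ (∃ n ∈ C, ∃ m ∈ C, Y = n * (u * p1) * m) ∨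
    (∃ n ∈ C, ∃ m ∈ C, Y = n * (star u * p2) * m)

/-- the elements on which all test words have the property `Φ` -/
def Inv (C : Set B) (p1 p2 u : B) (Φ : B → Prop) (X : B) : Prop :=
  ∀ Y, Wd C p1 p2 u Y → Φ (Y * X)

variable (K) in
/-- linear properties -/
structure Lin (Φ : B → Prop) : Prop where
  zero : Φ 0
  add : ∀ x y, Φ x → Φ y → Φ (x + y)
  smul : ∀ (c : K) x, Φ x → Φ (c • x)

variable {C : Set B} {p1 p2 u : B} {Φ : B → Prop}

theorem Inv.add (hΦ : Lin K Φ) {X Z : B} (hX : Inv C p1 p2 u Φ X) (hZ : Inv C p1 p2 u Φ Z) :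
    Inv C p1 p2 u Φ (X + Z) := fun Y hY => by
  rw [mul_add]; exact hΦ.add _ _ (hX Y hY) (hZ Y hY)

theorem Inv.smul (hΦ : Lin K Φ) (c : K) {X : B} (hX : Inv C p1 p2 u Φ X) :
    Inv C p1 p2 u Φ (c • X) := fun Y hY => by
  rw [mul_smul_comm]; exact hΦ.smul _ _ (hX Y hY)

theorem Inv.zero (hΦ : Lin K Φ) : Inv C p1 p2 u Φ 0 := fun Y _ => by
  rw [mul_zero]; exact hΦ.zero

namespace AG

theorem orth' (h : AG K C p1 p2 u) {x : B} (hx : x ∈ C) : p1 * x * p2 = 0 := by
  have := congrArg star (h.orth _ (h.star_mem x hx))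
  simpa [star_mul, h.s1, h.s2, mul_assoc] using this

theorem u3 (h : AG K C p1 p2 u) : p2 * u = u * p1 := by
  have h1 := congrArg star h.u2
  simp only [star_mul, star_star, h.s1, h.s2] at h1
  rw [← mul_assoc, h.u1] at h1
  exact h1.symm

theorem u4 (h : AG K C p1 p2 u) : p1 * star u = star u * p2 := by
  have h1 := congrArg star h.u3
  simpa only [star_mul, h.s1, h.s2] using h1.symm

theorem inv_mem (h : AG K C p1 p2 u) {a X : B} (ha : a ∈ C) (hX : Inv C p1 p2 u Φ X) :
    Inv C p1 p2 u Φ (a * X) := by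
  intro Y hY
  rw [← mul_assoc]
  refine hX _ ?_
  rcases hY with hY | ⟨n, hn, m, hm, rfl⟩ | ⟨n, hn, m, hm, rfl⟩
  · exact Or.inl (h.mul _ hY _ ha)
  · exact Or.inr (Or.inl ⟨n, hn, m * a, h.mul _ hm _ ha, by simp only [mul_assoc]⟩)
  · exact Or.inr (Or.inr ⟨n, hn, m * a, h.mul _ hm _ ha, by simp only [mul_assoc]⟩)

theorem inv_u (h : AG K C p1 p2 u) (hΦ : Lin K Φ) {X : B} (hX : Inv C p1 p2 u Φ X) :
    Inv C p1 p2 u Φ (u * X) := by
  have key : Inv C p1 p2 u Φ (u * p1 * X) := by
    intro Y hY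
    rcases hY with hY | ⟨n, hn, m, hm, rfl⟩ | ⟨n, hn, m, hm, rfl⟩
    · have := hX _ (Or.inr (Or.inl ⟨Y, hY, 1, h.one, rfl⟩))
      rwa [mul_one, mul_assoc] at this
    · have e : n * (u * p1) * m * (u * p1 * X) = 0 := by
        calc n * (u * p1) * m * (u * p1 * X) = n * (u * p1) * m * (p2 * u * p1 * X) := by
              rw [h.u1]
          _ = n * u * (p1 * m * p2) * u * p1 * X := by simp only [mul_assoc]
          _ = 0 := by rw [h.orth' hm]; simp
      rw [e]; exact hΦ.zero
    · obtain ⟨c, hc⟩ := h.d2 m hm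
      have e : n * (star u * p2) * m * (u * p1 * X) = c • (n * p1 * X) := by
        calc n * (star u * p2) * m * (u * p1 * X)
            = n * (star u * p2) * m * (p2 * u * p1 * X) := by rw [h.u1]
          _ = n * star u * (p2 * m * p2) * u * p1 * X := by simp only [mul_assoc]
          _ = c • (n * star u * (p2 * u * p1) * X) := by
              rw [hc]; simp only [mul_assoc, smul_mul_assoc, mul_smul_comm]
          _ = c • (n * (star u * u) * p1 * X) := by rw [h.u1]; simp only [mul_assoc]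
          _ = c • (n * p1 * X) := by rw [h.su, mul_one]
      rw [e]
      exact hΦ.smul _ _ (hX _ (Or.inl (h.mul _ hn _ h.m1)))
  have e : u * X = u * (1 - p1) * X + u * p1 * X := by
    rw [← add_mul, mul_sub, mul_one, sub_add_cancel]
  rw [e]
  exact (h.inv_mem h.part hX).add hΦ key

theorem inv_su (h : AG K C p1 p2 u) (hΦ : Lin K Φ) {X : B} (hX : Inv C p1 p2 u Φ X) :
    Inv C p1 p2 u Φ (star u * X) := by
  have key : Inv C p1 p2 u Φ (star u * p2 * X) := by
    intro Y hY
    rcases hY with hY | ⟨n, hn, m, hm, rfl⟩ | ⟨n, hn, m, hm, rfl⟩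
    · have := hX _ (Or.inr (Or.inr ⟨Y, hY, 1, h.one, rfl⟩))
      rwa [mul_one, mul_assoc] at this
    · obtain ⟨c, hc⟩ := h.d1 m hm
      have e : n * (u * p1) * m * (star u * p2 * X) = c • (n * p2 * X) := by
        calc n * (u * p1) * m * (star u * p2 * X)
            = n * (u * p1) * m * (p1 * star u * p2 * X) := by rw [h.u2]
          _ = n * u * (p1 * m * p1) * star u * p2 * X := by simp only [mul_assoc]
          _ = c • (n * u * (p1 * star u * p2) * X) := by
              rw [hc]; simp only [mul_assoc, smul_mul_assoc, mul_smul_comm]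
          _ = c • (n * (u * star u) * p2 * X) := by rw [h.u2]; simp only [mul_assoc]
          _ = c • (n * p2 * X) := by rw [h.us, mul_one]
      rw [e]
      exact hΦ.smul _ _ (hX _ (Or.inl (h.mul _ hn _ h.m2)))
    · have e : n * (star u * p2) * m * (star u * p2 * X) = 0 := by
        calc n * (star u * p2) * m * (star u * p2 * X)
            = n * (star u * p2) * m * (p1 * star u * p2 * X) := by rw [h.u2]
          _ = n * star u * (p2 * m * p1) * star u * p2 * X := by simp only [mul_assoc]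
          _ = 0 := by rw [h.orth m hm]; simp
      rw [e]; exact hΦ.zero
  have e : star u * X = star (u * (1 - p1)) * X + star u * p2 * X := by
    rw [← add_mul, star_mul, star_sub, star_one, h.s1, sub_mul, one_mul, h.u4, sub_add_cancel]
  rw [e]
  exact (h.inv_mem (h.star_mem _ h.part) hX).add hΦ key

/-- compressions of the test words to a third determined projection are scalar -/
theorem compress (h : AG K C p1 p2 u) (cs : ∀ x : B, star x * x = 0 → x = 0) {E : B}
    (hE : E ∈ C) (sE : star E = E) (dE : ∀ x ∈ C, ∃ c : K, E * x * E = c • E) {Y : B}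
    (hY : Wd C p1 p2 u Y) : ∃ c : K, E * Y * E = c • E := by
  have dich : (∀ a ∈ C, p1 * a * E = 0) ∨ (∀ a ∈ C, p2 * a * E = 0) := by
    by_contra hcon
    push Not at hcon
    obtain ⟨⟨x, hx, hx0⟩, ⟨y, hy, hy0⟩⟩ := hcon
    obtain ⟨c, hc⟩ := dE _ (h.mul _ (h.mul _ (h.star_mem _ hx) _ h.m1) _ hx)
    have e1 : star (p1 * x * E) * (p1 * x * E) = c • E := by
      rw [← hc]
      simp only [star_mul, h.s1, sE]
      calc E * (star x * p1) * (p1 * x * E) = E * (star x * (p1 * p1) * x) * E := by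
            simp only [mul_assoc]
        _ = _ := by rw [h.i1]
    have hc0 : c ≠ 0 := by
      rintro rfl
      rw [zero_smul] at e1
      exact hx0 (cs _ e1)
    have e2 : c • (p2 * y * E) = 0 := by
      calc c • (p2 * y * E) = p2 * y * (c • E) := by rw [mul_smul_comm]
        _ = p2 * y * (E * (star x * p1 * x) * E) := by rw [hc]
        _ = p2 * (y * E * star x) * p1 * x * E := by simp only [mul_assoc]
        _ = 0 := by rw [h.orth _ (h.mul _ (h.mul _ hy _ hE) _ (h.star_mem _ hx))]; simp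
    exact hy0 ((smul_eq_zero.1 e2).resolve_left hc0)
  have flip : ∀ p : B, star p = p → (∀ a ∈ C, p * a * E = 0) → ∀ a ∈ C, E * a * p = 0 := by
    intro p hp hd a ha
    have := congrArg star (hd _ (h.star_mem _ ha))
    simpa [star_mul, hp, sE, mul_assoc] using this
  rcases hY with hY | ⟨a, ha, b, hb, rfl⟩ | ⟨a, ha, b, hb, rfl⟩
  · exact dE _ hY
  · refine ⟨0, ?_⟩
    rw [zero_smul]
    rcases dich with hd | hd
    · calc E * (a * (u * p1) * b) * E = E * a * u * (p1 * b * E) := by simp only [mul_assoc]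
        _ = 0 := by rw [hd b hb, mul_zero]
    · calc E * (a * (u * p1) * b) * E = E * (a * (p2 * u * p1) * b) * E := by rw [h.u1]
        _ = E * a * p2 * u * p1 * b * E := by simp only [mul_assoc]
        _ = 0 := by rw [flip p2 h.s2 hd a ha]; simp
  · refine ⟨0, ?_⟩
    rw [zero_smul]
    rcases dich with hd | hd
    · calc E * (a * (star u * p2) * b) * E = E * (a * (p1 * star u * p2) * b) * E := by
            rw [h.u2]
        _ = E * a * p1 * star u * p2 * b * E := by simp only [mul_assoc]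
        _ = 0 := by rw [flip p1 h.s1 hd a ha]; simp
    · calc E * (a * (star u * p2) * b) * E = E * a * star u * (p2 * b * E) := by
            simp only [mul_assoc]
        _ = 0 := by rw [hd b hb, mul_zero]

end AG

end Vale.Agent.P070Z41
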