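import Vale.Agent.P070Z41.Act

/-!
# Adding one unitary: the stabiliser of the invariant set
-/

set_option linter.unusedSectionVars false

namespace Vale.Agent.P070Z41

open Vale.Agent.P129B Vale.Agent.P070Z

universe v

variable {N : Type v} [ZM N] {R K : Type*} [Nm K R] [Field R] [LinearOrder R]
  [IsStrictOrderedRing R] [Field K] [Algebra R K] [KA R K] [StarRing K] [CX R K]
  [Coded N R] [RF N R] [Coded N K] [KF N R K]
  {L : Type*} [AddCommGroup L] [Module K L] [Nm L R] [Ip L K] [IA R K L] [Coded N L] [HS N R K L]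
  {B : Type*} [Ring B] [StarRing B] [Algebra K B] [StarModule K B] [Nm B R] [NG R B] [Coded N B]

/-- the elements which, with their adjoints, preserve the invariant set -/
def St (C : Set B) (p1 p2 u : B) (Φ : B → Prop) : Set B :=
  {x | ∀ X, Inv C p1 p2 u Φ X → Inv C p1 p2 u Φ (x * X) ∧ Inv C p1 p2 u Φ (star x * X)}

variable {C : Set B} {p1 p2 u : B} {Φ : B → Prop}

theorem St.of_mem (h : AG K C p1 p2 u) {x : B} (hx : x ∈ C) : x ∈ St C p1 p2 u Φ :=
  fun _ hX => ⟨h.inv_mem hx hX, h.inv_mem (h.star_mem x hx) hX⟩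

theorem St.u_mem (h : AG K C p1 p2 u) (hΦ : Lin K Φ) : u ∈ St C p1 p2 u Φ :=
  fun _ hX => ⟨h.inv_u hΦ hX, h.inv_su hΦ hX⟩

theorem St.add (hΦ : Lin K Φ) {x y : B} (hx : x ∈ St C p1 p2 u Φ) (hy : y ∈ St C p1 p2 u Φ) :
    x + y ∈ St C p1 p2 u Φ := fun X hX => by
  rw [star_add, add_mul, add_mul]
  exact ⟨(hx X hX).1.add hΦ (hy X hX).1, (hx X hX).2.add hΦ (hy X hX).2⟩

theorem St.smul (hΦ : Lin K Φ) (c : K) {x : B} (hx : x ∈ St C p1 p2 u Φ) :
    c • x ∈ St C p1 p2 u Φ := fun X hX => by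
  rw [star_smul, smul_mul_assoc, smul_mul_assoc]
  exact ⟨(hx X hX).1.smul hΦ _, (hx X hX).2.smul hΦ _⟩

theorem St.mul {x y : B} (hx : x ∈ St C p1 p2 u Φ) (hy : y ∈ St C p1 p2 u Φ) :
    x * y ∈ St C p1 p2 u Φ := fun X hX => by
  rw [star_mul, mul_assoc, mul_assoc]
  exact ⟨(hx _ (hy X hX).1).1, (hy _ (hx X hX).2).2⟩

theorem St.star_mem {x : B} (hx : x ∈ St C p1 p2 u Φ) : star x ∈ St C p1 p2 u Φ := fun X hX => by
  rw [star_star]
  exact ⟨(hx X hX).2, (hx X hX).1⟩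

theorem St.out (h : AG K C p1 p2 u) (base : ∀ Y, Wd C p1 p2 u Y → Φ Y) {x : B}
    (hx : x ∈ St C p1 p2 u Φ) : Φ x := by
  have := (hx 1 fun Y hY => by rw [mul_one]; exact base Y hY).1 1 (Or.inl h.one)
  rwa [one_mul, mul_one] at this

theorem St.cld (nmul : ∀ x y : B, nm (x * y) ≤ nm x * nm y) (nst : ∀ x : B, nm (star x) = nm x)
    (hΦ : Cld {X | Φ X}) : Cld (St C p1 p2 u Φ) := by
  have key : ∀ Y X a b : B, nm (Y * (a * X) - Y * (b * X)) ≤ nm Y * nm X * nm (a - b) := by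
    intro Y X a b
    rw [← mul_sub, ← sub_mul, mul_assoc, mul_comm (nm X)]
    exact (nmul _ _).trans (mul_le_mul_of_nonneg_left (nmul _ _) (nm_nonneg Y))
  refine cld_forall fun X => cld_forall fun _ => Cld.inter
    (S := {x | Inv C p1 p2 u Φ (x * X)}) (T := {x | Inv C p1 p2 u Φ (star x * X)})
    (cld_forall fun Y => cld_forall fun _ => ?_) (cld_forall fun Y => cld_forall fun _ => ?_)
  · exact Cld.pre (f := fun x => Y * (x * X)) (key Y X) hΦ
  · exact Cld.pre (f := fun x => Y * (star x * X)) (C := nm Y * nm X)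
      (fun a b => by rw [← nst (a - b), star_sub]; exact key Y X _ _) hΦ

theorem St.defF [Tot N B] [DefMul N B] [DefStar N B] [Intl N C] (hΦ : DefF N Φ) :
    DefF N (fun x => x ∈ St C p1 p2 u Φ) := by
  have h1 : DefF N (Wd C p1 p2 u) := by
    unfold Wd
    fun_prop
  have h2 : DefF N (Inv C p1 p2 u Φ) := by
    unfold Inv
    fun_prop
  show DefF N (fun x => ∀ X, Inv C p1 p2 u Φ X →
    Inv C p1 p2 u Φ (x * X) ∧ Inv C p1 p2 u Φ (star x * X))
  fun_prop

theorem intl_cc [Tot N B] [DefMul N B] (G : Set B) [Intl N G] : Intl N (cc G) :=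
  intl_setOfT (P := fun x => ∀ T, (∀ y ∈ G, y * T = T * y) → T * x = x * T) (by fun_prop)

variable {ap : B → L → L}

/-- `X` is a scalar on the kernel of `g` -/
def DetP (K : Type*) {L B : Type*} [Zero L] [Mul K] [Ip L K] (ap : B → L → L) (g X : B) : Prop :=
  ∃ c : K, ∀ z w, ap g z = 0 → ap g w = 0 → ip w (ap X z) = c * ip w z

namespace Act

variable (A : Act N K ap)
include A

theorem lin_det (g : B) : Lin K (DetP K ap g) where
  zero := ⟨0, fun z w _ _ => by rw [A.zero, ip_zero_right, zero_mul]⟩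
  add := fun x y ⟨c, hc⟩ ⟨d, hd⟩ => ⟨c + d, fun z w hz hw => by
    rw [A.add, ip_add_right, hc z w hz hw, hd z w hz hw, add_mul]⟩
  smul := fun a x ⟨c, hc⟩ => ⟨a * c, fun z w hz hw => by
    rw [A.smul, ip_smul_right, hc z w hz hw, mul_assoc]⟩

theorem ip_lip (w z : L) (a b : B) :
    nm (ip w (ap a z) - ip w (ap b z)) ≤ nm w * nm z * nm (a - b) := by
  rw [← ip_sub_right, ← A.sub, mul_assoc, mul_comm (nm z)]
  exact (nm_ip_le _ _).trans (mul_le_mul_of_nonneg_left (A.bd _ _) (nm_nonneg w))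

theorem cld_det (g : B) : Cld {X | DetP K ap g X} := by
  by_cases hz : ∃ z0, ap g z0 = 0 ∧ z0 ≠ 0
  swap
  · push Not at hz
    exact fun X _ => ⟨0, fun z w h _ => by rw [hz z h, A.zero', ip_zero_right, mul_zero]⟩
  obtain ⟨z0, h0, hn⟩ := hz
  have hnn : ip z0 z0 ≠ (0 : K) := fun e => hn (ip_self_eq_zero.1 e)
  have e : {X | DetP K ap g X} = {X | ∀ z w, ap g z = 0 → ap g w = 0 →
      ip z0 z0 * ip w (ap X z) - ip z0 (ap X z0) * ip w z = 0} := by
    ext X
    constructor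
    · rintro ⟨c, hc⟩ z w hz hw
      rw [hc z w hz hw, hc z0 z0 h0 h0]; ring
    · intro h
      refine ⟨ip z0 (ap X z0) / ip z0 z0, fun z w hz hw => ?_⟩
      field_simp
      linear_combination h z w hz hw
  rw [e]
  refine cld_forall fun z => cld_forall fun w => cld_forall fun _ => cld_forall fun _ =>
    cld_eq_zero (C := nm (ip z0 z0) * (nm w * nm z) + nm z0 * nm z0 * nm (ip w z)) fun a b => ?_
  have e2 : ip z0 z0 * ip w (ap a z) - ip z0 (ap a z0) * ip w z -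
      (ip z0 z0 * ip w (ap b z) - ip z0 (ap b z0) * ip w z) =
      ip z0 z0 * (ip w (ap a z) - ip w (ap b z)) -
        (ip z0 (ap a z0) - ip z0 (ap b z0)) * ip w z := by ring
  rw [e2]
  refine (nm_sub_le _ _).trans ?_
  rw [KA.nm_mul, KA.nm_mul]
  have h1 := mul_le_mul_of_nonneg_left (A.ip_lip w z a b) (nm_nonneg (ip z0 z0 : K))
  have h2 := mul_le_mul_of_nonneg_right (A.ip_lip z0 z0 a b) (nm_nonneg (ip w z : K))
  linarith

theorem lin_orth (y z : L) : Lin K (fun X => ip y (ap X z) = 0) where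
  zero := by rw [A.zero, ip_zero_right]
  add a b ha hb := by rw [A.add, ip_add_right, ha, hb, add_zero]
  smul c a ha := by rw [A.smul, ip_smul_right, ha, mul_zero]

theorem cld_orth (y z : L) : Cld {X | ip y (ap X z) = (0 : K)} := cld_eq_zero (A.ip_lip y z)

variable {G : Set B} (hG : SM G) (hd : ∀ z, Intl N {w : L | ∀ y ∈ G, ip w (ap y z) = 0})
include hG hd

theorem base_det (h : AG K (cc G) p1 p2 u) {g : B} (hg : g ∈ G) (D : ∀ x ∈ G, DetP K ap g x)
    (Y : B) (hY : Wd (cc G) p1 p2 u Y) : DetP K ap g Y := by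
  obtain ⟨E, hE⟩ := A.exists_pk g
  obtain ⟨c, hc⟩ := h.compress A.cstar (A.pk_mem hG hg hE) hE.sa
    (fun _ hx => A.pk_scalar hG hd hE D hx) hY
  refine ⟨c, fun z w hz hw => ?_⟩
  have e := congrArg (fun T => ip w (ap T z)) hc
  simp only [A.mul, A.smul] at e
  rwa [hE.fix z hz, A.ip_pk hE, hE.fix w hw, ip_smul_right] at e

theorem base_orth (h : AG K (cc G) p1 p2 u) {y z : L} (hz : ap p1 z = z)
    (hb : ∀ b ∈ G, ip y (ap b z) = 0) (hc : ∀ c ∈ G, ip y (ap c (ap u z)) = 0)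
    (Y : B) (hY : Wd (cc G) p1 p2 u Y) : ip y (ap Y z) = 0 := by
  rcases hY with hY | ⟨n, hn, m, hm, rfl⟩ | ⟨n, hn, m, hm, rfl⟩
  · exact A.ip_cc hG (hd z) hY hb
  · obtain ⟨c, e⟩ := h.d1 m hm
    have e2 := congrArg (fun T => ap T z) e
    simp only [A.mul, A.smul, hz] at e2
    simp only [A.mul]
    rw [e2, A.smul', A.smul', ip_smul_right, A.ip_cc hG (hd _) hn hc, mul_zero]
  · have e2 := congrArg (fun T => ap T z) (h.orth m hm)
    simp only [A.mul, A.zero, hz] at e2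
    simp only [A.mul]
    rw [e2, A.zero', A.zero', ip_zero_right]

end Act

end Vale.Agent.P070Z41
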