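import Vale.Agent.P129BZ.Scal
import Vale.Agent.P129B.Real

/-!
# The projection theorem inside a model
-/

set_option linter.unusedSectionVars false

namespace Vale.Agent.P070Z41

open Vale.Agent.P129B

universe v

variable {R : Type*} [Field R] [LinearOrder R] [IsStrictOrderedRing R]
  {K : Type*} [Field K] [Algebra R K] [Nm K R] [KA R K]
  {E : Type*} [AddCommGroup E] [Module K E] [Nm E R] [NA R K E]

/-- `ip` is an inner product which induces the norm -/
structure IsIP (ip : E → E → K) : Prop where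
  add : ∀ x y z, ip x (y + z) = ip x y + ip x z
  smul : ∀ (c : K) x y, ip x (c • y) = c * ip x y
  conj : ∀ x y, ip y x = KA.conj (ip x y)
  self : ∀ x, ip x x = algebraMap R K (nm x ^ 2)

namespace IsIP

variable {ip : E → E → K}

theorem add_left (h : IsIP ip) (x y z : E) : ip (x + y) z = ip x z + ip y z := by
  rw [h.conj z (x + y), h.add, map_add, ← h.conj, ← h.conj]

theorem smul_left (h : IsIP ip) (c : K) (x y : E) : ip (c • x) y = KA.conj c * ip x y := by
  rw [h.conj y (c • x), h.smul, map_mul, ← h.conj]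

theorem nm_add_sq (h : IsIP ip) (x y : E) :
    nm (x + y) ^ 2 = nm x ^ 2 + 2 * KA.re (ip x y) + nm y ^ 2 := by
  have h1 := congrArg KA.re (h.self (x + y))
  rw [h.add_left, h.add, h.add, h.self, h.self, h.conj x y] at h1
  simp only [map_add, KA.re_ofR, KA.re_conj] at h1
  linarith

theorem sub (h : IsIP ip) (x y z : E) : ip x (y - z) = ip x y - ip x z := by
  rw [sub_eq_add_neg, h.add, ← neg_one_smul K z, h.smul]; ring

theorem nm_sub_sq (h : IsIP ip) (x y : E) :
    nm (x - y) ^ 2 = nm x ^ 2 - 2 * KA.re (ip x y) + nm y ^ 2 := by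
  rw [sub_eq_add_neg, h.nm_add_sq, nm_neg, ← neg_one_smul K y, h.smul, neg_one_mul, map_neg]
  ring

/-- a point of minimal distance is orthogonal -/
theorem orth_of_min (h : IsIP ip) {y w : E} (H : ∀ c : K, nm y ^ 2 ≤ nm (y - c • w) ^ 2) :
    ip w y = 0 := by
  have h0 : 0 < nm w ^ 2 + 1 := by positivity
  have h1 := H (algebraMap R K (nm w ^ 2 + 1)⁻¹ * ip w y)
  rw [h.nm_sub_sq, h.smul, h.conj w y, mul_assoc, KA.mul_conj_self, ← map_mul, KA.re_ofR, nm_smul,
    KA.nm_mul, KA.nm_ofR_of_nonneg (inv_nonneg.2 h0.le)] at h1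
  set t := (nm w ^ 2 + 1)⁻¹ with ht
  have h2 : t * (nm w ^ 2 + 1) = 1 := inv_mul_cancel₀ h0.ne'
  have h3 : 0 < t := inv_pos.2 h0
  have h4 : t * nm (ip w y) ^ 2 * (1 + t) ≤ 0 := by
    have e : (t * nm (ip w y) * nm w) ^ 2 = t * nm (ip w y) ^ 2 * (t * nm w ^ 2) := by ring
    have e2 : t * nm w ^ 2 = 1 - t := by linarith
    rw [e, e2] at h1
    linarith
  have h5 : nm (ip w y) ^ 2 ≤ 0 := by
    by_contra h6
    have h7 : 0 < t * nm (ip w y) ^ 2 * (1 + t) := by
      have := not_le.1 h6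
      positivity
    linarith
  exact nm_eq_zero.1 (pow_eq_zero_iff two_ne_zero |>.1 (le_antisymm h5 (sq_nonneg _)))

theorem para (h : IsIP ip) (x a b : E) :
    nm (a - b) ^ 2 + 4 * nm (x - algebraMap R K (1 / 2) • (a + b)) ^ 2 =
      2 * nm (x - a) ^ 2 + 2 * nm (x - b) ^ 2 := by
  have e1 : a - b = (x - b) - (x - a) := by abel
  have e2 : algebraMap R K 2 • (x - algebraMap R K (1 / 2) • (a + b)) = (x - b) + (x - a) := by
    rw [smul_sub, smul_smul, ← map_mul, show (2 : R) * (1 / 2) = 1 by norm_num, map_one, one_smul,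
      map_ofNat, two_smul]
    abel
  have e3 := nm_ofR_smul_of_nonneg (K := K) (show (0 : R) ≤ 2 by norm_num)
    (x - algebraMap R K (1 / 2) • (a + b))
  rw [e2] at e3
  have e4 := h.nm_add_sq (x - b) (x - a)
  have e5 := h.nm_sub_sq (x - b) (x - a)
  rw [← e1] at e5
  rw [e3] at e4
  linarith

end IsIP

variable {N : Type v} [ZM N] [Coded N R] [RF N R] [Coded N K] [KF N R K] [Coded N E] [NS N R K E]

/-- **The projection theorem.** -/
theorem exists_foot [Cpl N R E] {ip : E → E → K} (h : IsIP ip) {V : Set E} (hV : IsISub N K V)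
    (cl : ∀ x, (∀ ε : R, 0 < ε → ∃ v ∈ V, nm (x - v) < ε) → x ∈ V) (x : E) :
    ∃ v ∈ V, ∀ w ∈ V, ip w (x - v) = 0 := by
  have := hV.intl
  have hS : Intl N {r : R | ∃ v ∈ V, nm (x - v) ^ 2 = r} := intl_setOfT (by fun_prop)
  obtain ⟨D, hD⟩ := RF.glb _ hS ⟨_, 0, hV.zero, rfl⟩ ⟨0, by
    rintro _ ⟨v, -, rfl⟩; positivity⟩
  have lo : ∀ v ∈ V, D ≤ nm (x - v) ^ 2 := fun v hv => hD.1 ⟨v, hv, rfl⟩
  obtain ⟨s, hs, H⟩ := exists_intl_choiceT (N := N)
    (R := fun (n : NN N) (v : E) => v ∈ V ∧ nm (x - v) ^ 2 < D + hp R n) (by fun_prop) fun n => by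
      obtain ⟨_, ⟨v, hv, rfl⟩, -, h2⟩ := hD.exists_between (lt_add_of_pos_right D (hp_pos n))
      exact ⟨v, hv, h2⟩
  obtain ⟨v, hv⟩ := Cpl.lim (N := N) s hs fun ε hε => by
    obtain ⟨n, hn⟩ := exists_hp_lt N (show 0 < ε ^ 2 / 4 by positivity)
    refine ⟨n, fun k l hk hl => ?_⟩
    have h1 := h.para x (s k) (s l)
    have h2 := lo _ (hV.smul (algebraMap R K (1 / 2)) _ (hV.add _ (H k).1 _ (H l).1))
    have h3 : nm (s k - s l) ^ 2 < ε ^ 2 := by
      linarith [(H k).2, (H l).2, hn k hk, hn l hl]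
    exact lt_of_pow_lt_pow_left₀ 2 hε.le h3
  have hvV : v ∈ V := cl v fun ε hε => by
    obtain ⟨n, hn⟩ := hv ε hε
    exact ⟨s n, (H n).1, nm_sub_rev (s n) v ▸ hn n le_rfl⟩
  have hi : nm (x - v) ^ 2 ≤ D := by
    refine le_of_forall_pos_le_add fun ε hε => ?_
    have h0 := nm_nonneg (x - v)
    obtain ⟨n, hn⟩ := hv (ε / (4 * (nm (x - v) + 1))) (by positivity)
    obtain ⟨m, hm⟩ := exists_hp_lt N (show 0 < ε / 2 by positivity)
    have h1 := hn (max n m) (le_max_left _ _)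
    have h2 := hm (max n m) (le_max_right _ _)
    have h3 := (H (max n m)).2
    have h4 := nm_triangle x (s (max n m)) v
    have h5 := nm_nonneg (x - s (max n m))
    have h6 := nm_nonneg (s (max n m) - v)
    rw [lt_div_iff₀ (by positivity)] at h1
    nlinarith [sq_nonneg (nm (x - v) - nm (x - s (max n m)))]
  refine ⟨v, hvV, fun w hw => h.orth_of_min fun c => hi.trans ?_⟩
  rw [sub_sub]
  exact lo _ (hV.add _ hvV _ (hV.smul c _ hw))

end Vale.Agent.P070Z41
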