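import Vale.Agent.P070Z41.Pre
import Vale.Agent.P070ZA.Defs

/-!
# Adding one unitary: KEY-UE and KEY-V
-/

set_option linter.unusedSectionVars false

namespace Vale.Agent.P070Z

open Vale.Agent.P129B Vale.Agent.P070ZT

universe v

variable {N : Type v} [ZM N] {R K : Type*} [Nm K R] [Field R] [LinearOrder R]
  [IsStrictOrderedRing R] [Field K] [Algebra R K] [KA R K] [StarRing K] [CX R K]
  [Coded N R] [RF N R] [Coded N K] [KF N R K]
  {H : Type*} [AddCommGroup H] [Module K H] [Nm H R] [Ip H K] [IA R K H] [Coded N H] [HS N R K H]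
  {L : Type*} [AddCommGroup L] [Module K L] [Nm L R] [Ip L K] [IA R K L] [Coded N L] [HS N R K L]
  {P : Op N K H → Op N K L} {G : Set (Op N K H)} {k1 k2 g u : Op N K H}

include R K

theorem key_hom (hP : URp Set.univ P) : P070Z41.Hom P :=
  ⟨hP.defF, hP.one, fun x y => hP.add x trivial y trivial, fun c x => hP.smul c x trivial,
    fun x y => hP.mul x trivial y trivial, fun x => hP.star x trivial, fun _ => hP.nm_le trivial⟩

theorem key_wit {S : Set (Op N K H)} (h : P070Z41.Wit S) : CS N K S :=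
  ⟨h.intl, h.one, h.add, h.mul, h.smul, h.star_mem, fun _ hx => h.cld hx⟩

/-- **KEY-UE**: adding a gluing unitary keeps determined elements determined. -/
theorem key_ue (hP : URp Set.univ P) (hG : CS N K G) (hk1 : k1 ∈ G) (hk2 : k2 ∈ G) (hg : g ∈ G)
    (sa : star k1 = k1) (hu : Un u) (huk : u * k1 ∈ G)
    (hc : ∀ z, P k1 z = 0 → P k2 (P u z) = 0) (hc' : ∀ z, P k2 z = 0 → P k1 (P (star u) z) = 0)
    (D1 : Det P k1 G) (D2 : Det P k2 G) (Dg : Det P g G) (I : Ineq P k1 k2 G) :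
    Det P g (gen (G ∪ {u})) := by
  obtain ⟨S, h1, h2, h3, h4⟩ := P070Z41.Glue.wit_ue (key_hom hP)
    ⟨hG.intl, ⟨hG.one, hG.mul, hG.star⟩, hk1, hk2, sa, hu.2, hu.1, huk, hc, hc', D1, D2, I⟩ hg Dg
  exact fun x hx => h4 x (gen_le (key_wit h1)
    (Set.union_subset h2 (Set.singleton_subset_iff.2 h3)) hx)

/-- **KEY-V**, orthogonal form. -/
theorem key_v (hP : URp Set.univ P) (hG : CS N K G) (hk1 : k1 ∈ G) (hk2 : k2 ∈ G)
    (sa : star k1 = k1) (hu : Un u) (huk : u * k1 ∈ G)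
    (hc : ∀ z, P k1 z = 0 → P k2 (P u z) = 0) (hc' : ∀ z, P k2 z = 0 → P k1 (P (star u) z) = 0)
    (D1 : Det P k1 G) (D2 : Det P k2 G) (I : Ineq P k1 k2 G) {y z : L} (hz : P k1 z = 0)
    (hb : ∀ b ∈ G, ip y (P b z) = 0) (hb' : ∀ c ∈ G, ip y (P c (P u z)) = 0) :
    ∀ a ∈ gen (G ∪ {u}), ip y (P a z) = 0 := by
  obtain ⟨S, h1, h2, h3, h4⟩ := P070Z41.Glue.wit_v (key_hom hP)
    ⟨hG.intl, ⟨hG.one, hG.mul, hG.star⟩, hk1, hk2, sa, hu.2, hu.1, huk, hc, hc', D1, D2, I⟩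
    hz hb hb'
  exact fun x hx => h4 x (gen_le (key_wit h1)
    (Set.union_subset h2 (Set.singleton_subset_iff.2 h3)) hx)

end Vale.Agent.P070Z
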