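import Vale.Agent.P070Z41.Proj

/-!
# Adding one unitary: the closed subalgebras which witness KEY-UE and KEY-V
-/

set_option linter.unusedSectionVars false

namespace Vale.Agent.P070Z41

open Vale.Agent.P129B Vale.Agent.P070Z

universe v

variable {N : Type v} [ZM N] {R K : Type*} [Nm K R] [Field R] [LinearOrder R]
  [IsStrictOrderedRing R] [Field K] [Algebra R K] [KA R K] [StarRing K] [CX R K]
  [Coded N R] [RF N R] [Coded N K] [KF N R K]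
  {H : Type*} [AddCommGroup H] [Module K H] [Nm H R] [Ip H K] [IA R K H] [Coded N H] [HS N R K H]
  {L : Type*} [AddCommGroup L] [Module K L] [Nm L R] [Ip L K] [IA R K L] [Coded N L] [HS N R K L]

include R K

/-- a definable unital contractive `*`-homomorphism on all operators -/
structure Hom (P : Op N K H → Op N K L) : Prop where
  defF : DefF N P
  one : P 1 = 1
  add : ∀ x y, P (x + y) = P x + P y
  smul : ∀ (c : K) x, P (c • x) = c • P x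
  mul : ∀ x y, P (x * y) = P x * P y
  star_eq : ∀ x, P (star x) = star (P x)
  nm_le : ∀ x, nm (P x) ≤ nm x

/-- the data of a gluing unitary -/
structure Glue (P : Op N K H → Op N K L) (G : Set (Op N K H)) (k1 k2 u : Op N K H) : Prop where
  intl : Intl N G
  sm : SM G
  m1 : k1 ∈ G
  m2 : k2 ∈ G
  sa : star k1 = k1
  us : u * star u = 1
  su : star u * u = 1
  uk : u * k1 ∈ G
  hc : ∀ z, P k1 z = 0 → P k2 (P u z) = 0
  hc' : ∀ z, P k2 z = 0 → P k1 (P (star u) z) = 0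
  d1 : ∀ x ∈ G, ∃ c : K, ∀ z w, P k1 z = 0 → P k1 w = 0 → ip w (P x z) = c * ip w z
  d2 : ∀ x ∈ G, ∃ c : K, ∀ z w, P k2 z = 0 → P k2 w = 0 → ip w (P x z) = c * ip w z
  ineq : ∀ x ∈ G, ∀ z1 z2, P k1 z1 = 0 → P k2 z2 = 0 → ip z2 (P x z1) = 0

/-- an internal closed unital `*`-subalgebra -/
structure Wit (S : Set (Op N K H)) : Prop where
  intl : Intl N S
  one : (1 : Op N K H) ∈ S
  add : ∀ x ∈ S, ∀ y ∈ S, x + y ∈ S
  mul : ∀ x ∈ S, ∀ y ∈ S, x * y ∈ S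
  smul : ∀ c : K, ∀ x ∈ S, c • x ∈ S
  star_mem : ∀ x ∈ S, star x ∈ S
  cld : Cld S

variable {P : Op N K H → Op N K L} {G : Set (Op N K H)} {k1 k2 u : Op N K H}

theorem Glue.sm' (hP : Hom P) (h : Glue P G k1 k2 u) : SM (P '' G) where
  one := ⟨1, h.sm.one, hP.one⟩
  mul := by
    rintro _ ⟨x, hx, rfl⟩ _ ⟨y, hy, rfl⟩
    exact ⟨x * y, h.sm.mul x hx y hy, hP.mul x y⟩
  star_mem := by
    rintro _ ⟨x, hx, rfl⟩
    exact ⟨star x, h.sm.star_mem x hx, hP.star_eq x⟩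

theorem Glue.intl' (hP : Hom P) (h : Glue P G k1 k2 u) : Intl N (P '' G) :=
  haveI := h.intl
  intl_image hP.defF G

theorem Glue.hd (hP : Hom P) (h : Glue P G k1 k2 u) (z : L) :
    Intl N {w : L | ∀ y ∈ P '' G, ip w (y z) = (0 : K)} :=
  haveI := h.intl' hP
  intl_setOfT (by fun_prop)

theorem Glue.ag (hP : Hom P) (h : Glue P G k1 k2 u) {p1 p2 : Op N K L}
    (h1 : IsPK (fun (x : Op N K L) (v : L) => x v) (P k1) p1)
    (h2 : IsPK (fun (x : Op N K L) (v : L) => x v) (P k2) p2) :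
    AG K (cc (P '' G)) p1 p2 (P u) :=
  act.ag (h.sm' hP) (h.hd hP) h1 h2 ⟨k1, h.m1, rfl⟩ ⟨k2, h.m2, rfl⟩
    (by rw [← hP.star_eq, h.sa]) (by rw [← hP.star_eq, ← hP.mul, h.us, hP.one])
    (by rw [← hP.star_eq, ← hP.mul, h.su, hP.one]) ⟨u * k1, h.uk, hP.mul u k1⟩ h.hc
    (fun z hz => by rw [← hP.star_eq]; exact h.hc' z hz)
    (by rintro _ ⟨x, hx, rfl⟩; exact h.d1 x hx) (by rintro _ ⟨x, hx, rfl⟩; exact h.d2 x hx)
    (by rintro _ ⟨x, hx, rfl⟩; exact h.ineq x hx)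

theorem Glue.wit (hP : Hom P) (h : Glue P G k1 k2 u) {p1 p2 : Op N K L}
    (ag : AG K (cc (P '' G)) p1 p2 (P u)) {Φ : Op N K L → Prop} (lin : Lin K Φ)
    (cl : Cld {X | Φ X}) (hΦ : DefF N Φ) (base : ∀ Y, Wd (cc (P '' G)) p1 p2 (P u) Y → Φ Y) :
    ∃ S : Set (Op N K H), Wit S ∧ G ⊆ S ∧ u ∈ S ∧ ∀ x ∈ S, Φ (P x) := by
  have := h.intl' hP
  have := intl_cc (N := N) (P '' G)
  refine ⟨{x | P x ∈ St (cc (P '' G)) p1 p2 (P u) Φ}, ⟨intl_setOfT ((St.defF hΦ).comp hP.defF),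
    ?_, fun x hx y hy => ?_, fun x hx y hy => ?_, fun c x hx => ?_, fun x hx => ?_, ?_⟩,
    fun x hx => St.of_mem ag (le_cc ⟨x, hx, rfl⟩), St.u_mem ag lin, fun x hx => St.out ag base hx⟩
  · exact St.of_mem ag (le_cc ⟨1, h.sm.one, rfl⟩)
  · rw [Set.mem_ofPred_eq, hP.add]; exact St.add lin hx hy
  · rw [Set.mem_ofPred_eq, hP.mul]; exact St.mul hx hy
  · rw [Set.mem_ofPred_eq, hP.smul]; exact St.smul lin c hx
  · rw [Set.mem_ofPred_eq, hP.star_eq]; exact St.star_mem hx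
  · refine Cld.pre (C := 1) (fun x y => ?_) (St.cld Op.nm_mul_le Op.nm_star cl)
    rw [one_mul, ← eq_sub_of_add_eq (by rw [← hP.add, sub_add_cancel] : P (x - y) + P y = P x)]
    exact hP.nm_le _

/-- **KEY-UE**, witness form -/
theorem Glue.wit_ue (hP : Hom P) (h : Glue P G k1 k2 u) {g : Op N K H} (hg : g ∈ G)
    (D : ∀ x ∈ G, ∃ c : K, ∀ z w, P g z = 0 → P g w = 0 → ip w (P x z) = c * ip w z) :
    ∃ S : Set (Op N K H), Wit S ∧ G ⊆ S ∧ u ∈ S ∧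
      ∀ x ∈ S, ∃ c : K, ∀ z w, P g z = 0 → P g w = 0 → ip w (P x z) = c * ip w z := by
  obtain ⟨p1, h1⟩ := act.exists_pk (P k1)
  obtain ⟨p2, h2⟩ := act.exists_pk (P k2)
  exact h.wit hP (h.ag hP h1 h2) (Φ := DetP K (fun (x : Op N K L) (v : L) => x v) (P g))
    (act.lin_det _) (act.cld_det _) (by unfold DetP; fun_prop)
    (act.base_det (h.sm' hP) (h.hd hP) (h.ag hP h1 h2) ⟨g, hg, rfl⟩
      (by rintro _ ⟨x, hx, rfl⟩; exact D x hx))

/-- **KEY-V**, witness form -/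
theorem Glue.wit_v (hP : Hom P) (h : Glue P G k1 k2 u) {y z : L} (hz : P k1 z = 0)
    (hb : ∀ b ∈ G, ip y (P b z) = 0) (hc : ∀ c ∈ G, ip y (P c (P u z)) = 0) :
    ∃ S : Set (Op N K H), Wit S ∧ G ⊆ S ∧ u ∈ S ∧ ∀ x ∈ S, ip y (P x z) = 0 := by
  obtain ⟨p1, h1⟩ := act.exists_pk (P k1)
  obtain ⟨p2, h2⟩ := act.exists_pk (P k2)
  exact h.wit hP (h.ag hP h1 h2) (Φ := fun X => ip y (X z) = 0)
    (act.lin_orth y z) (act.cld_orth y z) (by fun_prop)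
    (act.base_orth (h.sm' hP) (h.hd hP) (h.ag hP h1 h2) (h1.fix z hz)
      (by rintro _ ⟨x, hx, rfl⟩; exact hb x hx) (by rintro _ ⟨x, hx, rfl⟩; exact hc x hx))

end Vale.Agent.P070Z41
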