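import Vale.Agent.P070Z41.Foot
import Vale.Agent.P070Z41.Core
import Vale.Agent.P070ZA.Op

/-!
# Orthogonal projections as operators
-/

set_option linter.unusedSectionVars false

namespace Vale.Agent.P070Z41

open Vale.Agent.P129B Vale.Agent.P070Z

universe v

variable {N : Type v} [ZM N] {R K : Type*} [Nm K R] [Field R] [LinearOrder R]
  [IsStrictOrderedRing R] [Field K] [Algebra R K] [KA R K] [StarRing K] [CX R K]
  [Coded N R] [RF N R] [Coded N K] [KF N R K]
  {L : Type*} [AddCommGroup L] [Module K L] [Nm L R] [Ip L K] [IA R K L] [Coded N L] [HS N R K L]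

include R K

theorem isIP : IsIP (ip : L → L → K) where
  add := ip_add_right
  smul := ip_smul_right
  conj x y := by rw [← CX.star_eq, star_ip]
  self := ip_self

/-- **The orthogonal projection onto an internal closed subspace.** -/
theorem exists_projOp (V : Set L) (hV : IsISub N K V) (cl : Cld V) :
    ∃ p : Op N K L, star p = p ∧ (∀ v, p v ∈ V) ∧ ∀ v ∈ V, p v = v := by
  have := hV.intl
  obtain ⟨f, hf, H⟩ := exists_intl_choiceT (N := N)
    (R := fun x v : L => v ∈ V ∧ ∀ w ∈ V, ip w (x - v) = 0) (by fun_prop)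
    fun x => exists_foot isIP hV (fun _ hx => cl hx) x
  have h1 : ∀ x y, ip (f x) y = ip (f x) (f y) := fun x y =>
    sub_eq_zero.1 (by rw [← ip_sub_right]; exact (H y).2 _ (H x).1)
  have h2 : ∀ x y, ip (f x) y = ip x (f y) := fun x y => by
    rw [h1, ← star_ip, ← h1, star_ip]
  obtain ⟨p, hp⟩ := exists_op (N := N) f f (DefF.ofIntl f) (DefF.ofIntl f) h2 1 fun x => by
    rw [one_mul]
    refine nm_le_of_ip (nm_nonneg x) ?_
    rw [← h1, mul_comm]
    exact nm_ip_le _ _
  refine ⟨p, sa_of_ip fun x y => by rw [hp, hp, h2], fun v => hp v ▸ (H v).1, fun v hv => ?_⟩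
  have m : v - f v ∈ V := by
    rw [sub_eq_add_neg, ← neg_one_smul K]
    exact hV.add _ hv _ (hV.smul _ _ (H v).1)
  rw [hp]
  exact (sub_eq_zero.1 (ip_self_eq_zero.1 ((H v).2 _ m))).symm

/-- the operators act -/
theorem act : Act N K (fun (x : Op N K L) (v : L) => x v) where
  dap x := x.defF
  one _ := rfl
  mul _ _ _ := rfl
  add _ _ _ := rfl
  smul _ _ _ := rfl
  add' x := map_add x
  smul' x := map_smul x
  adj := ip_star_left
  ext _ _ := Op.ext
  bd := Op.le_opNorm
  proj := exists_projOp

end Vale.Agent.P070Z41
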